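import Mathlib

/-!
Numerics for the block version of the limited views bound.
-/

namespace Vale.Agent.P336.R2.H842

theorem lt_div_add_one (x y : ℕ) : (x : ℝ) / y < ((x / y : ℕ) : ℝ) + 1 := by
  have h := Nat.lt_floor_add_one ((x : ℝ) / y)
  rwa [Nat.floor_div_eq_div] at h

/-- The three floors. -/
theorem floors {P r s N : ℝ} {p N' s' : ℕ} (hP : P = p) (hs' : s = s') (hN' : N = N')
    (hp : 1 ≤ p) (hs0 : 0 < s) (hN0 : 0 < N) (hrs : r * s = N) (hr64 : 64 * P ^ 2 ≤ r)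
    (hs64 : 64 * P ≤ s) (hN8 : 8 * P ≤ N) :
    N / (8 * P) ≤ ((N' / 4 / p : ℕ) : ℝ) ∧
    r / (64 * P ^ 2) ≤ (((N' / 4 / p) / (4 * s' * p) : ℕ) : ℝ) ∧
    s / (64 * P) ≤ (((N' / 4 / p) * s' / (4 * N') : ℕ) : ℝ) := by
  have hP0 : 0 < P := by rw [hP]; exact_mod_cast hp
  have hm : N / (8 * P) ≤ ((N' / 4 / p : ℕ) : ℝ) := by
    have h1 := lt_div_add_one N' (4 * p)
    rw [← Nat.div_div_eq_div_mul] at h1
    push_cast at h1
    rw [← hN', ← hP] at h1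
    have h2 : (1 : ℝ) ≤ N / (8 * P) := by
      rw [le_div_iff₀ (by positivity)]; linarith
    have h3 : N / (4 * P) = N / (8 * P) + N / (8 * P) := by field_simp; ring
    linarith
  have h4 : N ≤ ((N' / 4 / p : ℕ) : ℝ) * (8 * P) := by
    rwa [div_le_iff₀ (by positivity)] at hm
  refine ⟨hm, ?_, ?_⟩
  · have h1 := lt_div_add_one (N' / 4 / p) (4 * s' * p)
    have e : ((4 * s' * p : ℕ) : ℝ) = 4 * s * P := by push_cast; rw [← hs', ← hP]
    rw [e] at h1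
    have h2 : r / (32 * P ^ 2) ≤ ((N' / 4 / p : ℕ) : ℝ) / (4 * s * P) := by
      rw [div_le_div_iff₀ (by positivity) (by positivity)]
      calc r * (4 * s * P) = (r * s) * (4 * P) := by ring
        _ = N * (4 * P) := by rw [hrs]
        _ ≤ (((N' / 4 / p : ℕ) : ℝ) * (8 * P)) * (4 * P) := by gcongr
        _ = ((N' / 4 / p : ℕ) : ℝ) * (32 * P ^ 2) := by ring
    have h3 : (1 : ℝ) ≤ r / (64 * P ^ 2) := by
      rw [le_div_iff₀ (by positivity)]; linarith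
    have h5 : r / (32 * P ^ 2) = r / (64 * P ^ 2) + r / (64 * P ^ 2) := by
      field_simp; ring
    linarith
  · have h1 := lt_div_add_one ((N' / 4 / p) * s') (4 * N')
    have e : ((4 * N' : ℕ) : ℝ) = 4 * N := by push_cast; rw [← hN']
    have e2 : (((N' / 4 / p) * s' : ℕ) : ℝ) = ((N' / 4 / p : ℕ) : ℝ) * s := by
      rw [Nat.cast_mul, ← hs']
    rw [e, e2] at h1
    have h2 : s / (32 * P) ≤ (((N' / 4 / p : ℕ) : ℝ) * s) / (4 * N) := by
      rw [div_le_div_iff₀ (by positivity) (by positivity)]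
      calc s * (4 * N) ≤ s * (4 * (((N' / 4 / p : ℕ) : ℝ) * (8 * P))) := by gcongr
        _ = ((N' / 4 / p : ℕ) : ℝ) * s * (32 * P) := by ring
    have h3 : (1 : ℝ) ≤ s / (64 * P) := by
      rw [le_div_iff₀ (by positivity)]; linarith
    have h5 : s / (32 * P) = s / (64 * P) + s / (64 * P) := by
      field_simp; ring
    linarith

/-- Constants and the rate `r = N / s`. -/
theorem rates (p : ℕ) (hp : 1 ≤ p) {D : ℝ}
    (hD : D = (64 * (p : ℝ) ^ 2) ^ p * (128 * p * 2 ^ p)) :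
    0 < D ∧ 128 * (p : ℝ) * 2 ^ p ≤ D ∧ (64 * (p : ℝ) ^ 2) ^ p ≤ D ∧ 128 * (p : ℝ) ^ 2 ≤ D := by
  have hP : (1 : ℝ) ≤ p := by exact_mod_cast hp
  have h64 : (1 : ℝ) ≤ 64 * (p : ℝ) ^ 2 := by nlinarith
  have h64p : (1 : ℝ) ≤ (64 * (p : ℝ) ^ 2) ^ p := one_le_pow₀ h64
  have h2p : (p : ℝ) ≤ 2 ^ p := by
    have : p < 2 ^ p := Nat.lt_two_pow_self
    exact_mod_cast this.le
  have hE1 : (1 : ℝ) ≤ 128 * p * 2 ^ p := by nlinarith
  have hD1 : 128 * (p : ℝ) * 2 ^ p ≤ D := by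
    rw [hD]; nlinarith
  have hD2 : (64 * (p : ℝ) ^ 2) ^ p ≤ D := by
    rw [hD]; nlinarith
  refine ⟨by linarith, hD1, hD2, le_trans ?_ hD1⟩
  nlinarith

theorem numerics_blocks (p : ℕ) (hp : 1 ≤ p) : ∃ c : ℝ, 0 < c ∧ ∀ N s : ℕ, 1 ≤ N →
    N ^ p ≤ s ^ (p + 1) → (s : ℝ) ≤ c * N → ∃ g a t : ℕ,
      p * (N / 4 / p) ≤ N / 4 ∧ p ≤ N / 4 ∧ 1 ≤ N / 4 / p ∧ a ≤ N / 4 / p ∧ 1 ≤ s ∧ s ≤ N ∧
      4 * s * p * g ≤ N / 4 / p ∧ 4 * a * N ≤ (N / 4 / p) * s ∧ 2 ^ p * t + p ≤ a ∧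
      t ≤ g ^ p ∧ 3 ≤ t ∧ c * ((N : ℝ) / s) ^ p ≤ t - 3 := by
  have hP : (1 : ℝ) ≤ p := by exact_mod_cast hp
  obtain ⟨hD0, hD1, hD2, hD3⟩ := rates p hp rfl
  generalize (64 * (p : ℝ) ^ 2) ^ p * (128 * p * 2 ^ p) = D at hD0 hD1 hD2 hD3
  refine ⟨1 / (8 * D), by positivity, fun N s hN hNs hs => ?_⟩
  have hs1 : 1 ≤ s := by
    rcases Nat.eq_zero_or_pos s with h | h
    · subst h
      have : 0 < N ^ p := pow_pos hN p
      simp at hNs
      omega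
    · exact h
  have hs0 : (0 : ℝ) < s := by exact_mod_cast hs1
  have hs1' : (1 : ℝ) ≤ s := by exact_mod_cast hs1
  have hN0 : (0 : ℝ) < N := by exact_mod_cast hN
  obtain ⟨r, hr⟩ : ∃ r : ℝ, r = (N : ℝ) / s := ⟨_, rfl⟩
  rw [← hr]
  have hrs : r * s = N := by rw [hr]; field_simp
  have hrK : 8 * D ≤ r := by
    rw [hr, le_div_iff₀ hs0]
    have h := mul_le_mul_of_nonneg_right hs (by positivity : (0 : ℝ) ≤ 8 * D)
    have e : 1 / (8 * D) * (N : ℝ) * (8 * D) = N := by field_simp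
    rw [e] at h
    linarith
  have hP2 : (1 : ℝ) ≤ (p : ℝ) ^ 2 := one_le_pow₀ hP
  have hPP : (p : ℝ) ≤ (p : ℝ) ^ 2 := by nlinarith
  have hr1 : 1 ≤ r := by linarith
  have hr0 : 0 < r := by linarith
  have hrp : r ^ p ≤ s := by
    rw [hr, div_pow, div_le_iff₀ (by positivity)]
    have : ((N ^ p : ℕ) : ℝ) ≤ ((s ^ (p + 1) : ℕ) : ℝ) := by exact_mod_cast hNs
    push_cast at this
    calc (N : ℝ) ^ p ≤ (s : ℝ) ^ (p + 1) := this
      _ = s * s ^ p := by ring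
  have hrrp : r ≤ r ^ p := le_self_pow₀ hr1 (by omega)
  have hsr : r ≤ s := hrrp.trans hrp
  have hsN : (s : ℝ) ≤ N := by
    rw [← hrs]; exact le_mul_of_one_le_left hs0.le hr1
  have hsD : 128 * (p : ℝ) ^ 2 ≤ s := by linarith
  have hNp : 8 * (p : ℝ) ≤ N := by linarith
  have hNp' : 8 * p ≤ N := by exact_mod_cast hNp
  obtain ⟨-, hgR, haR⟩ := floors (P := (p : ℝ)) (r := r) (s := (s : ℝ)) (N := (N : ℝ))
    (p := p) (N' := N) (s' := s) rfl rfl rfl hp hs0 hN0 hrs (by linarith) (by linarith) hNp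
  have hm1 : 1 ≤ N / 4 / p := by
    rw [Nat.div_div_eq_div_mul]
    exact (Nat.le_div_iff_mul_le (by positivity)).2 (by omega)
  have hsN' : s ≤ N := by exact_mod_cast hsN
  have ht1 : ((⌊r ^ p / D⌋₊ : ℕ) : ℝ) ≤ r ^ p / D := Nat.floor_le (by positivity)
  have ht2 : r ^ p / D < ((⌊r ^ p / D⌋₊ : ℕ) : ℝ) + 1 := Nat.lt_floor_add_one _
  generalize ⌊r ^ p / D⌋₊ = t at ht1 ht2
  have hrD : 8 ≤ r ^ p / D := by
    rw [le_div_iff₀ hD0]
    linarith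
  have ht3 : 3 ≤ t := by
    have h3 : (3 : ℝ) < (t : ℝ) + 1 := by linarith
    have h4 : 3 < t + 1 := by exact_mod_cast h3
    omega
  have h4 : 4 * s * p * (N / 4 / p / (4 * s * p)) ≤ N / 4 / p := Nat.mul_div_le _ _
  have h5 : 4 * N * (N / 4 / p * s / (4 * N)) ≤ N / 4 / p * s := Nat.mul_div_le _ _
  generalize N / 4 / p / (4 * s * p) = g at hgR h4
  generalize N / 4 / p * s / (4 * N) = a at haR h5
  refine ⟨g, a, t, Nat.mul_div_le _ _, by omega, hm1, ?_, hs1, hsN', h4, ?_, ?_, ?_, ht3, ?_⟩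
  · generalize N / 4 / p = m at h5
    have h6 : N * (4 * a) ≤ N * m := by
      calc N * (4 * a) = 4 * N * a := by ring
        _ ≤ m * s := h5
        _ ≤ m * N := Nat.mul_le_mul_left _ hsN'
        _ = N * m := by ring
    have h7 := Nat.le_of_mul_le_mul_left h6 hN
    omega
  · calc 4 * a * N = 4 * N * a := by ring
      _ ≤ N / 4 / p * s := h5
  · have h1 : (2 : ℝ) ^ p * t + p ≤ a := by
      have h2 : (2 : ℝ) ^ p * t ≤ s / (128 * p) := by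
        calc (2 : ℝ) ^ p * t ≤ 2 ^ p * (r ^ p / D) := by gcongr
          _ ≤ 2 ^ p * (s / (128 * p * 2 ^ p)) := by gcongr
          _ = s / (128 * p) := by field_simp
      have h3 : (p : ℝ) ≤ s / (128 * p) := by
        rw [le_div_iff₀ (by positivity)]
        linarith
      have h6 : (s : ℝ) / (64 * p) = s / (128 * p) + s / (128 * p) := by
        field_simp; ring
      linarith
    exact_mod_cast h1
  · have h1 : (t : ℝ) ≤ (g : ℝ) ^ p := by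
      calc (t : ℝ) ≤ r ^ p / D := ht1
        _ ≤ r ^ p / (64 * (p : ℝ) ^ 2) ^ p := by gcongr
        _ = (r / (64 * (p : ℝ) ^ 2)) ^ p := by rw [div_pow]
        _ ≤ (g : ℝ) ^ p := by gcongr
    exact_mod_cast h1
  · have h1 : 1 / (8 * D) * r ^ p = (r ^ p / D) / 8 := by field_simp
    rw [h1]
    linarith

end Vale.Agent.P336.R2.H842
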