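import Vale.Agent.P336.R2.H842.NumBlocks

/-!
Numerics for the block version of the limited views bound, uniform in the number of blocks.
-/

namespace Vale.Agent.P336.R2.H842

/-- Powers. -/
theorem pow_facts (p : ℕ) (hp : 1 ≤ p) {P r s z : ℝ} (hP : P = p) (hrK : 4096 * P ^ 2 ≤ r)
    (hrp : r ^ p ≤ s) (hz : z = (r / (256 * P ^ 2)) ^ p) :
    4096 * P ^ 2 ≤ s ∧ z ≤ (r / (64 * P ^ 2)) ^ p ∧ 2 ^ p * z ≤ s / (128 * P) ∧
      (r / (4096 * P ^ 2)) ^ p + 4 ≤ z := by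
  have hP1 : (1 : ℝ) ≤ P := by rw [hP]; exact_mod_cast hp
  have hP0 : 0 < P := by linarith
  have hP2 : (1 : ℝ) ≤ P ^ 2 := one_le_pow₀ hP1
  have hr1 : 1 ≤ r := by linarith
  have hr0 : 0 < r := by linarith
  have hrrp : r ≤ r ^ p := le_self_pow₀ hr1 (by omega)
  have hs0 : 0 < s := by linarith
  refine ⟨by linarith, ?_, ?_, ?_⟩
  · rw [hz]
    gcongr
    norm_num
  · have h1 : 2 ^ p * z = (1 / (128 * P ^ 2)) ^ p * r ^ p := by
      rw [hz, ← mul_pow, ← mul_pow]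
      congr 1
      field_simp
      norm_num
    rw [h1]
    have h2 : (1 / (128 * P ^ 2)) ^ p ≤ 1 / (128 * P ^ 2) := by
      apply pow_le_of_le_one (by positivity) _ (by omega)
      rw [div_le_one (by positivity)]
      linarith
    have h3 : 1 / (128 * P ^ 2) ≤ 1 / (128 * P) := by
      apply one_div_le_one_div_of_le (by positivity)
      nlinarith
    calc (1 / (128 * P ^ 2)) ^ p * r ^ p ≤ (1 / (128 * P)) * s := by
          have h4 : (0 : ℝ) ≤ (1 / (128 * P ^ 2)) ^ p := by positivity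
          have h5 : (0 : ℝ) ≤ r ^ p := by positivity
          exact mul_le_mul (h2.trans h3) hrp h5 (by positivity)
      _ = s / (128 * P) := by ring
  · obtain ⟨w, hw⟩ : ∃ w : ℝ, w = (r / (4096 * P ^ 2)) ^ p := ⟨_, rfl⟩
    have h1 : z = 16 ^ p * w := by
      rw [hz, hw, ← mul_pow]
      congr 1
      field_simp
      norm_num
    have hw1 : 1 ≤ w := by
      rw [hw]
      apply one_le_pow₀
      rw [le_div_iff₀ (by positivity)]
      linarith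
    have h16 : (16 : ℝ) ≤ 16 ^ p := le_self_pow₀ (by norm_num) (by omega)
    rw [← hw, h1]
    nlinarith

theorem numerics_unif : ∃ K : ℕ, 1 ≤ K ∧ ∀ p N s : ℕ, 1 ≤ p → 1 ≤ N → N ^ p ≤ s ^ (p + 1) →
    K * p ^ 2 * s ≤ N → ∃ g a t : ℕ, p * (N / 4 / p) ≤ N / 4 ∧ p ≤ N / 4 ∧ 1 ≤ N / 4 / p ∧
      a ≤ N / 4 / p ∧ 1 ≤ s ∧ s ≤ N ∧ 4 * s * p * g ≤ N / 4 / p ∧
      4 * a * N ≤ (N / 4 / p) * s ∧ 2 ^ p * t + p ≤ a ∧ t ≤ g ^ p ∧ 3 ≤ t ∧
      ((N : ℝ) / (K * p ^ 2 * s)) ^ p ≤ t - 3 := by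
  refine ⟨4096, by norm_num, fun p N s hp hN hNs hs => ?_⟩
  have hP : (1 : ℝ) ≤ p := by exact_mod_cast hp
  have hs1 : 1 ≤ s := by
    rcases Nat.eq_zero_or_pos s with h | h
    · subst h
      have : 0 < N ^ p := pow_pos hN p
      simp at hNs
      omega
    · exact h
  have hs0 : (0 : ℝ) < s := by exact_mod_cast hs1
  have hN0 : (0 : ℝ) < N := by exact_mod_cast hN
  have hsR : 4096 * (p : ℝ) ^ 2 * s ≤ N := by exact_mod_cast hs
  obtain ⟨r, hr⟩ : ∃ r : ℝ, r = (N : ℝ) / s := ⟨_, rfl⟩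
  have hrs : r * s = N := by rw [hr]; field_simp
  have hrK : 4096 * (p : ℝ) ^ 2 ≤ r := by
    rw [hr, le_div_iff₀ hs0]
    exact hsR
  have hP2 : (1 : ℝ) ≤ (p : ℝ) ^ 2 := one_le_pow₀ hP
  have hPP : (p : ℝ) ≤ (p : ℝ) ^ 2 := by nlinarith
  have hr1 : 1 ≤ r := by linarith
  have hr0 : 0 < r := by linarith
  have hrp : r ^ p ≤ s := by
    rw [hr, div_pow, div_le_iff₀ (by positivity)]
    have : ((N ^ p : ℕ) : ℝ) ≤ ((s ^ (p + 1) : ℕ) : ℝ) := by exact_mod_cast hNs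
    push_cast at this
    calc (N : ℝ) ^ p ≤ (s : ℝ) ^ (p + 1) := this
      _ = s * s ^ p := by ring
  have hsN : (s : ℝ) ≤ N := by
    rw [← hrs]; exact le_mul_of_one_le_left hs0.le hr1
  obtain ⟨hsK, hz1, hz2, hz3⟩ := pow_facts p hp rfl hrK hrp rfl
  have hNp : 8 * (p : ℝ) ≤ N := by linarith
  have hNp' : 8 * p ≤ N := by exact_mod_cast hNp
  obtain ⟨-, hgR, haR⟩ := floors (P := (p : ℝ)) (r := r) (s := (s : ℝ)) (N := (N : ℝ))
    (p := p) (N' := N) (s' := s) rfl rfl rfl hp hs0 hN0 hrs (by linarith) (by linarith) hNp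
  have hm1 : 1 ≤ N / 4 / p := by
    rw [Nat.div_div_eq_div_mul]
    exact (Nat.le_div_iff_mul_le (by positivity)).2 (by omega)
  have hsN' : s ≤ N := by exact_mod_cast hsN
  have hrw : (N : ℝ) / (((4096 : ℕ) : ℝ) * p ^ 2 * s) = r / (4096 * (p : ℝ) ^ 2) := by
    rw [hr, div_div]
    congr 1
    push_cast
    ring
  rw [hrw]
  have hw0 : 0 ≤ (r / (4096 * (p : ℝ) ^ 2)) ^ p := by positivity
  have hz0 : 0 ≤ (r / (256 * (p : ℝ) ^ 2)) ^ p := by positivity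
  generalize (r / (256 * (p : ℝ) ^ 2)) ^ p = z at hz0 hz1 hz2 hz3
  generalize (r / (4096 * (p : ℝ) ^ 2)) ^ p = w at hz3 hw0
  have ht1 : ((⌊z⌋₊ : ℕ) : ℝ) ≤ z := Nat.floor_le hz0
  have ht2 : z < ((⌊z⌋₊ : ℕ) : ℝ) + 1 := Nat.lt_floor_add_one _
  generalize ⌊z⌋₊ = t at ht1 ht2
  have ht3 : 3 ≤ t := by
    have h3 : (3 : ℝ) < (t : ℝ) + 1 := by linarith
    have h4 : 3 < t + 1 := by exact_mod_cast h3
    omega
  have h4 : 4 * s * p * (N / 4 / p / (4 * s * p)) ≤ N / 4 / p := Nat.mul_div_le _ _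
  have h5 : 4 * N * (N / 4 / p * s / (4 * N)) ≤ N / 4 / p * s := Nat.mul_div_le _ _
  generalize N / 4 / p / (4 * s * p) = g at hgR h4
  generalize N / 4 / p * s / (4 * N) = a at haR h5
  refine ⟨g, a, t, Nat.mul_div_le _ _, by omega, hm1, ?_, hs1, hsN', h4, ?_, ?_, ?_, ht3, ?_⟩
  · generalize N / 4 / p = m at h5
    have h6 : N * (4 * a) ≤ N * m := by
      calc N * (4 * a) = 4 * N * a := by ring
        _ ≤ m * s := h5
        _ ≤ m * N := Nat.mul_le_mul_left _ hsN'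
        _ = N * m := by ring
    have h7 := Nat.le_of_mul_le_mul_left h6 hN
    omega
  · calc 4 * a * N = 4 * N * a := by ring
      _ ≤ N / 4 / p * s := h5
  · have h1 : (2 : ℝ) ^ p * t + p ≤ a := by
      have h2 : (2 : ℝ) ^ p * t ≤ s / (128 * p) := by
        refine le_trans ?_ hz2
        gcongr
      have h3 : (p : ℝ) ≤ s / (128 * p) := by
        rw [le_div_iff₀ (by positivity)]
        nlinarith
      have h6 : (s : ℝ) / (64 * p) = s / (128 * p) + s / (128 * p) := by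
        field_simp; ring
      linarith
    exact_mod_cast h1
  · have h1 : (t : ℝ) ≤ (g : ℝ) ^ p := by
      calc (t : ℝ) ≤ z := ht1
        _ ≤ (r / (64 * (p : ℝ) ^ 2)) ^ p := hz1
        _ ≤ (g : ℝ) ^ p := by gcongr
    exact_mod_cast h1
  · linarith

end Vale.Agent.P336.R2.H842
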