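import Vale.Agent.P336.R2.H842.NumWide

/-!
Numerics for circuits whose bottom gates have limited views, general form.
-/

namespace Vale.Agent.P336.R2.H842

/-- third term, general form -/
theorem term_three_gen {p m a f D : ℕ} {q L B E : ℝ} (hp : 1 ≤ p) (hD : 1 ≤ D) (hB : B = 2 ^ p)
    (hE : E = D * B) (hq0 : 0 < q) (hqm : q * m = D * L) (hL0 : 0 ≤ L)
    (hf : (f : ℝ) ≤ L / (128 * E ^ 2)) (ha : L / 8 ≤ a + 1) :
    (((p : ℝ) * D * (64 * B))⁻¹)⁻¹ ^ f * (1 + q * ((p : ℝ) * D * (64 * B))⁻¹) ^ (p * m) *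
      (2 : ℝ) ^ (-(((a : ℝ) - p) / B)) ≤ (2 : ℝ) ^ (1 - (f : ℝ)) := by
  have hp1 : (1 : ℝ) ≤ p := by exact_mod_cast hp
  have hD1 : (1 : ℝ) ≤ D := by exact_mod_cast hD
  have hpB : (p : ℝ) + 1 ≤ B := by
    rw [hB]
    have : p + 1 ≤ 2 ^ p := Nat.lt_two_pow_self
    exact_mod_cast this
  have hB0 : 0 < B := by linarith
  have hBE : B ≤ E := by rw [hE]; nlinarith
  have hDE : (D : ℝ) ≤ E := by rw [hE]; nlinarith
  have hE2 : 2 ≤ E := by linarith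
  have hE0 : 0 < E := by linarith
  have hf0 : (0 : ℝ) ≤ f := Nat.cast_nonneg _
  obtain ⟨Y, hY⟩ : ∃ Y : ℝ, Y = (p : ℝ) * D * (64 * B) := ⟨_, rfl⟩
  have hY0 : 0 < Y := by rw [hY]; positivity
  rw [← hY, inv_inv]
  have hY2 : Y ≤ (2 : ℝ) ^ (6 * E) := by
    have e1 : (p : ℝ) ≤ (2 : ℝ) ^ (p : ℝ) := by
      rw [Real.rpow_natCast]
      exact_mod_cast Nat.lt_two_pow_self.le
    have e2 : (D : ℝ) ≤ (2 : ℝ) ^ (D : ℝ) := by
      rw [Real.rpow_natCast]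
      exact_mod_cast Nat.lt_two_pow_self.le
    have e3 : 64 * B = (2 : ℝ) ^ (6 + (p : ℝ)) := by
      rw [hB, Real.rpow_add (by norm_num), Real.rpow_natCast]
      norm_num
    calc Y = (p : ℝ) * D * (64 * B) := hY
      _ ≤ (2 : ℝ) ^ (p : ℝ) * (2 : ℝ) ^ (D : ℝ) * (64 * B) := by gcongr
      _ = (2 : ℝ) ^ ((p : ℝ) + D + (6 + p)) := by
          rw [e3, ← Real.rpow_add (by norm_num), ← Real.rpow_add (by norm_num)]
      _ ≤ (2 : ℝ) ^ (6 * E) := by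
          apply Real.rpow_le_rpow_of_exponent_le (by norm_num)
          linarith
  have h1 : Y ^ f ≤ (2 : ℝ) ^ (6 * E * f) := by
    rw [Real.rpow_mul (by norm_num), Real.rpow_natCast]
    gcongr
  have h2 : (1 + q * Y⁻¹) ^ (p * m) ≤ (2 : ℝ) ^ (2 * (L / (64 * B))) := by
    calc (1 + q * Y⁻¹) ^ (p * m) ≤ (Real.exp (q * Y⁻¹)) ^ (p * m) := by
          gcongr
          have := Real.add_one_le_exp (q * Y⁻¹)
          linarith
      _ = Real.exp (p * (q * m) * Y⁻¹) := by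
          rw [← Real.exp_nat_mul]
          congr 1
          push_cast
          ring
      _ = Real.exp (L / (64 * B)) := by
          congr 1
          rw [hqm, hY]
          field_simp
      _ ≤ (2 : ℝ) ^ (2 * (L / (64 * B))) := exp_le_two' (by positivity)
  calc Y ^ f * (1 + q * Y⁻¹) ^ (p * m) * (2 : ℝ) ^ (-(((a : ℝ) - p) / B))
      ≤ (2 : ℝ) ^ (6 * E * f) * (2 : ℝ) ^ (2 * (L / (64 * B))) *
        (2 : ℝ) ^ (-(((a : ℝ) - p) / B)) := by gcongr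
    _ = (2 : ℝ) ^ (6 * E * f + 2 * (L / (64 * B)) + -(((a : ℝ) - p) / B)) := by
        rw [← Real.rpow_add (by norm_num), ← Real.rpow_add (by norm_num)]
    _ ≤ (2 : ℝ) ^ (1 - (f : ℝ)) := by
        apply Real.rpow_le_rpow_of_exponent_le (by norm_num)
        obtain ⟨v, hv⟩ : ∃ v : ℝ, v = L / B := ⟨_, rfl⟩
        have hv0 : 0 ≤ v := by rw [hv]; positivity
        have e1 : L / (64 * B) = v / 64 := by rw [hv]; field_simp
        have e3 : L / 8 / B = v / 8 := by rw [hv]; ring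
        have h3 : (L / 8 - 1 - p) / B ≤ ((a : ℝ) - p) / B := by
          gcongr
          linarith
        have h4 : (L / 8 - 1 - p) / B = v / 8 - (1 + p) / B := by
          rw [← e3]; ring
        have h5 : (1 + (p : ℝ)) / B ≤ 1 := by
          rw [div_le_one hB0]; linarith
        have h6 : (6 * E + 1) * (f : ℝ) ≤ v / 16 := by
          calc (6 * E + 1) * (f : ℝ) ≤ (8 * E) * (L / (128 * E ^ 2)) := by
                apply mul_le_mul (by linarith) hf (by positivity) (by positivity)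
            _ = L / E / 16 := by field_simp; ring
            _ ≤ v / 16 := by
                rw [hv]
                gcongr
        rw [e1]
        linarith

theorem numerics_gen : ∃ K : ℕ, 1 ≤ K ∧ ∀ p m r a₀ D : ℕ, 1 ≤ p → 1 ≤ r → 1 ≤ D →
    r * (D * 2 ^ p) ^ K ≤ m → m ≤ D * a₀ → ∃ (a f : ℕ) (q y β : ℝ), a ≤ m ∧ 0 < q ∧ q ≤ 1 ∧
      (r : ℝ) * q ≤ 1 / 2 ∧ 0 < y ∧ y ≤ 1 ∧ 0 ≤ β ∧ (p : ℝ) * (1 / 2) ^ a ≤ β ^ 2 ^ p ∧
      ∀ S : ℕ, 1 ≤ (2 * (S : ℝ) + 1) * (2 * (p * 4 ^ (a + f) * ((1 + q / 4) / (1 + q)) ^ a₀ +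
        (1 / 2) ^ f + y⁻¹ ^ f * (1 + q * y) ^ (p * m) * β)) →
        (2 : ℝ) ^ ((m : ℝ) / (r * ((D : ℝ) * 2 ^ p) ^ K)) ≤ S := by
  refine ⟨14, by norm_num, fun p m r a₀ D hp hr hD hm ha₀ => ?_⟩
  obtain ⟨B, hB⟩ : ∃ B : ℝ, B = 2 ^ p := ⟨_, rfl⟩
  obtain ⟨E, hE⟩ : ∃ E : ℝ, E = D * B := ⟨_, rfl⟩
  have hp1 : (1 : ℝ) ≤ p := by exact_mod_cast hp
  have hD1 : (1 : ℝ) ≤ D := by exact_mod_cast hD
  have hpB : (p : ℝ) + 1 ≤ B := by
    rw [hB]
    have : p + 1 ≤ 2 ^ p := Nat.lt_two_pow_self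
    exact_mod_cast this
  have hB0 : 0 < B := by linarith
  have hBE : B ≤ E := by rw [hE]; nlinarith
  have hDE : (D : ℝ) ≤ E := by rw [hE]; nlinarith
  have hE2 : 2 ≤ E := by linarith
  have hE0 : 0 < E := by linarith
  have hr1 : (1 : ℝ) ≤ r := by exact_mod_cast hr
  have hr0 : (0 : ℝ) < r := by linarith
  have hmR : (r : ℝ) * E ^ 14 ≤ m := by
    rw [hE, hB]; exact_mod_cast hm
  have haR : (m : ℝ) ≤ D * a₀ := by exact_mod_cast ha₀
  rw [← hB, ← hE]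
  obtain ⟨x, hx⟩ : ∃ x : ℝ, x = (m : ℝ) / (r * E ^ 14) := ⟨_, rfl⟩
  have hx1 : 1 ≤ x := by
    rw [hx, le_div_iff₀ (by positivity)]; linarith
  have hmx : (m : ℝ) = x * r * E ^ 14 := by rw [hx]; field_simp
  rw [← hx]
  obtain ⟨L, hL⟩ : ∃ L : ℝ, L = x * E ^ 14 / (2 * D) := ⟨_, rfl⟩
  have hL0 : 0 < L := by rw [hL]; positivity
  have hL1 : x * E ^ 13 / 2 ≤ L := by
    rw [hL, div_le_div_iff₀ (by norm_num) (by positivity)]
    calc x * E ^ 13 * (2 * D) = 2 * x * E ^ 13 * D := by ring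
      _ ≤ 2 * x * E ^ 13 * E := by gcongr
      _ = x * E ^ 14 * 2 := by ring
  obtain ⟨q, hq⟩ : ∃ q : ℝ, q = 1 / (2 * r) := ⟨_, rfl⟩
  have hq0 : 0 < q := by rw [hq]; positivity
  have hrq : (r : ℝ) * q = 1 / 2 := by rw [hq]; field_simp
  have hq2 : q ≤ 1 / 2 := by nlinarith
  have hqm : q * m = D * L := by
    rw [hmx, hL]
    calc q * (x * r * E ^ 14) = (r * q) * (x * E ^ 14) := by ring
      _ = D * (x * E ^ 14 / (2 * D)) := by rw [hrq]; field_simp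
  have hLq : L ≤ q * a₀ := by
    have h1 : D * L ≤ D * (q * a₀) := by
      rw [← hqm]
      calc q * m ≤ q * (D * a₀) := by gcongr
        _ = D * (q * a₀) := by ring
    exact le_of_mul_le_mul_left h1 (by positivity)
  have hLm : L ≤ m := by
    have hm0 : (0 : ℝ) ≤ m := Nat.cast_nonneg _
    nlinarith
  have hE12 : (4096 : ℝ) ≤ E ^ 12 := by
    calc (4096 : ℝ) = 2 ^ 12 := by norm_num
      _ ≤ E ^ 12 := by gcongr
  have hpL : (p : ℝ) ≤ L / 8 := by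
    have h1 : (p : ℝ) ≤ E := by linarith
    have h2 : E * 4096 ≤ x * E ^ 13 := by
      calc E * 4096 ≤ E * E ^ 12 := by gcongr
        _ = 1 * E ^ 13 := by ring
        _ ≤ x * E ^ 13 := by gcongr
    linarith
  have ha1 : ((⌊L / 8⌋₊ : ℕ) : ℝ) ≤ L / 8 := Nat.floor_le (by positivity)
  have ha2 : L / 8 < ((⌊L / 8⌋₊ : ℕ) : ℝ) + 1 := Nat.lt_floor_add_one _
  generalize ⌊L / 8⌋₊ = a at ha1 ha2
  have hf1 : ((⌊L / (128 * E ^ 2)⌋₊ : ℕ) : ℝ) ≤ L / (128 * E ^ 2) := Nat.floor_le (by positivity)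
  have hf2 : L / (128 * E ^ 2) < ((⌊L / (128 * E ^ 2)⌋₊ : ℕ) : ℝ) + 1 := Nat.lt_floor_add_one _
  generalize ⌊L / (128 * E ^ 2)⌋₊ = f at hf1 hf2
  have hf3 : 3 * (f : ℝ) ≤ L / 8 := by
    have h1 : L / (128 * E ^ 2) ≤ L / 24 := by
      apply div_le_div_of_nonneg_left hL0.le (by norm_num)
      nlinarith
    linarith
  refine ⟨a, f, q, ((p : ℝ) * D * (64 * B))⁻¹, (2 : ℝ) ^ (-(((a : ℝ) - p) / B)), ?_, hq0,
    by linarith, hrq.le, by positivity, ?_, by positivity, ?_, fun S hS => ?_⟩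
  · have h1 : (a : ℝ) ≤ m := by linarith
    exact_mod_cast h1
  · apply inv_le_one_of_one_le₀
    calc (1 : ℝ) = 1 * 1 * (1 * 1) := by norm_num
      _ ≤ (p : ℝ) * D * (64 * B) := by
          gcongr
          · norm_num
          · linarith
  · have h1 : ((2 : ℝ) ^ (-(((a : ℝ) - p) / B))) ^ 2 ^ p = (2 : ℝ) ^ ((p : ℝ) - a) := by
      rw [← Real.rpow_natCast, ← Real.rpow_mul (by norm_num)]
      congr 1
      push_cast
      rw [← hB]
      field_simp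
      ring
    rw [h1, Real.rpow_sub (by norm_num), Real.rpow_natCast, Real.rpow_natCast, one_div, inv_pow,
      div_eq_mul_inv]
    have h2 : (p : ℝ) ≤ 2 ^ p := by rw [← hB]; linarith
    gcongr
  · have t1 := term_one (p := p) (a := a) (f := f) hq0 hq2 hLq (by linarith) hL0.le
    have t3 := term_three_gen (m := m) (a := a) (f := f) hp hD hB hE hq0 hqm hL0.le hf1 ha2.le
    have t2 : ((1 : ℝ) / 2) ^ f = (2 : ℝ) ^ (-(f : ℝ)) := by
      rw [Real.rpow_neg (by norm_num), Real.rpow_natCast, one_div, inv_pow]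
    have t4 : (2 : ℝ) ^ (1 - (f : ℝ)) = 2 * (2 : ℝ) ^ (-(f : ℝ)) := by
      rw [sub_eq_add_neg, Real.rpow_add (by norm_num), Real.rpow_one]
    rw [t4] at t3
    rw [t2] at hS
    generalize (p : ℝ) * 4 ^ (a + f) * ((1 + q / 4) / (1 + q)) ^ a₀ = A at t1 hS
    generalize (((p : ℝ) * D * (64 * B))⁻¹)⁻¹ ^ f *
      (1 + q * ((p : ℝ) * D * (64 * B))⁻¹) ^ (p * m) *
      (2 : ℝ) ^ (-(((a : ℝ) - p) / B)) = C at t3 hS
    by_contra hc
    rw [not_le] at hc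
    have hS0 : (0 : ℝ) ≤ S := Nat.cast_nonneg _
    have h1 : 1 ≤ (2 * (S : ℝ) + 1) * (8 * (2 : ℝ) ^ (-(f : ℝ))) :=
      hS.trans (mul_le_mul_of_nonneg_left (by linarith) (by linarith))
    have h2 : (1 : ℝ) ≤ 2 ^ x := Real.one_le_rpow (by norm_num) (by linarith)
    have h3 : 2 * (S : ℝ) + 1 ≤ 4 * 2 ^ x := by linarith
    have h4 : 1 ≤ (4 * (2 : ℝ) ^ x) * (8 * (2 : ℝ) ^ (-(f : ℝ))) :=
      h1.trans (mul_le_mul_of_nonneg_right h3 (by positivity))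
    have h5 : (4 * (2 : ℝ) ^ x) * (8 * (2 : ℝ) ^ (-(f : ℝ))) = (2 : ℝ) ^ (5 + x + -(f : ℝ)) := by
      rw [Real.rpow_add (by norm_num), Real.rpow_add (by norm_num)]
      norm_num
      ring
    rw [h5] at h4
    have h6 : 0 ≤ 5 + x + -(f : ℝ) := by
      by_contra h
      rw [not_le] at h
      have := Real.rpow_lt_one_of_one_lt_of_neg (x := (2 : ℝ)) (by norm_num) h
      linarith
    have h7 : 8 * x ≤ L / (128 * E ^ 2) := by
      rw [le_div_iff₀ (by positivity)]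
      have h11 : (2048 : ℝ) ≤ E ^ 11 := by
        calc (2048 : ℝ) = 2 ^ 11 := by norm_num
          _ ≤ E ^ 11 := by gcongr
      calc 8 * x * (128 * E ^ 2) = x * (2048 * E ^ 2) / 2 := by ring
        _ ≤ x * (E ^ 11 * E ^ 2) / 2 := by gcongr
        _ = x * E ^ 13 / 2 := by ring
        _ ≤ L := hL1
    linarith

end Vale.Agent.P336.R2.H842
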