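import Vale.Agent.P336.R2.H842.NumBlocks

/-!
Numerics for the local views bound.
-/

namespace Vale.Agent.P336.R2.H842

/-- Facts on `Z = 2 ^ p * (p + 1) ^ w`. -/
theorem z_facts (w p : ℕ) (hw : 1 ≤ w) (hp : 1 ≤ p) :
    4 ≤ 2 ^ p * (p + 1) ^ w ∧ p + 1 ≤ 2 ^ p * (p + 1) ^ w ∧ w ≤ 2 ^ p * (p + 1) ^ w ∧
      (p + 1) ^ w ≤ 2 ^ p * (p + 1) ^ w ∧ 2 ^ p ≤ 2 ^ p * (p + 1) ^ w ∧ p + 1 ≤ 2 ^ p := by
  have h1 : p + 1 ≤ 2 ^ p := Nat.lt_two_pow_self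
  have h2 : p + 1 ≤ (p + 1) ^ w := Nat.le_self_pow (by omega) _
  have h3 : 2 ^ w ≤ (p + 1) ^ w := Nat.pow_le_pow_left (by omega) _
  have h4 : w < 2 ^ w := Nat.lt_two_pow_self
  have h5 : 1 ≤ 2 ^ p := Nat.one_le_two_pow
  have h6 : 1 ≤ (p + 1) ^ w := Nat.one_le_pow _ _ (by omega)
  generalize 2 ^ p = A at h1 h5
  generalize (p + 1) ^ w = B at h2 h3 h6
  refine ⟨?_, ?_, ?_, ?_, ?_, h1⟩ <;> nlinarith

theorem numerics_local : ∃ K : ℕ, 1 ≤ K ∧ ∀ N w k p : ℕ, 1 ≤ w → 1 ≤ k → 1 ≤ p →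
    k * (2 ^ p * (p + 1) ^ w) ^ K ≤ N →
    (p + 1) * (N / 4 / (p + 1)) ≤ N / 4 ∧ p + 1 ≤ N / 4 ∧ 1 ≤ N / 4 / (p + 1) ∧
    4 * w * k * (p + 1) ^ (2 * w + 1) < N / 4 / (p + 1) ∧
    ∀ a S : ℕ, N / 4 / (p + 1) ≤ 2 * (p + 1) ^ w * a →
      (2 : ℝ) ^ a ≤ ((p + 1 : ℕ) : ℝ) * (2 * S + 1) ^ (2 ^ (p + 1)) →
      (2 : ℝ) ^ ((N : ℝ) / (((2 ^ p * (p + 1) ^ w) ^ K : ℕ) : ℝ)) ≤ S := by
  refine ⟨8, by norm_num, fun N w k p hw hk hp hN => ?_⟩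
  obtain ⟨z4, zp, zw, zb, za, pp⟩ := z_facts w p hw hp
  have he : (p + 1) ^ (2 * w + 1) = ((p + 1) ^ w) ^ 2 * (p + 1) := by ring
  rw [he]
  have hee : 2 ^ (p + 1) = 2 * 2 ^ p := by ring
  generalize hZ : 2 ^ p * (p + 1) ^ w = Z at *
  -- `m` is large
  have hm : k * Z ^ 6 ≤ N / 4 / (p + 1) := by
    rw [Nat.div_div_eq_div_mul]
    refine (Nat.le_div_iff_mul_le (by positivity)).2 ?_
    calc k * Z ^ 6 * (4 * (p + 1)) ≤ k * Z ^ 6 * (Z * Z) := by gcongr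
      _ = k * Z ^ 8 := by ring
      _ ≤ N := hN
  have hZ6 : 1 ≤ Z ^ 6 := Nat.one_le_pow _ _ (by omega)
  have hm1 : 1 ≤ N / 4 / (p + 1) := le_trans (by nlinarith) hm
  refine ⟨Nat.mul_div_le _ _, ?_, hm1, ?_, ?_⟩
  · have := (Nat.le_div_iff_mul_le (by omega)).1 hm1
    omega
  · refine lt_of_lt_of_le ?_ hm
    calc 4 * w * k * (((p + 1) ^ w) ^ 2 * (p + 1)) ≤ Z * Z * k * (Z ^ 2 * Z) := by gcongr
      _ = k * Z ^ 5 := by ring
      _ < k * Z ^ 6 := by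
        have h1 : Z ^ 5 < Z ^ 6 := Nat.pow_lt_pow_right (by omega) (by norm_num)
        exact Nat.mul_lt_mul_of_pos_left h1 hk
  · intro a S ha hS
    by_contra hc
    rw [not_le] at hc
    have hZR : (4 : ℝ) ≤ Z := by exact_mod_cast z4
    have hZ0 : (0 : ℝ) < Z := by linarith
    -- lower bound for `a`
    have hm2 := lt_div_add_one N (4 * (p + 1))
    rw [← Nat.div_div_eq_div_mul] at hm2
    have hmR : ((k * Z ^ 6 : ℕ) : ℝ) ≤ ((N / 4 / (p + 1) : ℕ) : ℝ) := by exact_mod_cast hm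
    have hkR : (1 : ℝ) ≤ k := by exact_mod_cast hk
    have haR : ((N / 4 / (p + 1) : ℕ) : ℝ) ≤ 2 * Z * a := by
      have h1 : ((N / 4 / (p + 1) : ℕ) : ℝ) ≤ ((2 * (p + 1) ^ w * a : ℕ) : ℝ) := by
        exact_mod_cast ha
      have h2 : ((2 * (p + 1) ^ w * a : ℕ) : ℝ) ≤ ((2 * Z * a : ℕ) : ℝ) := by
        have : 2 * (p + 1) ^ w * a ≤ 2 * Z * a := by gcongr
        exact_mod_cast this
      have h3 : ((2 * Z * a : ℕ) : ℝ) = 2 * Z * a := by push_cast; ring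
      linarith
    generalize ((N / 4 / (p + 1) : ℕ) : ℝ) = M at hm2 hmR haR
    have hNR : (N : ℝ) ≤ 2 * M * (Z * Z) := by
      have h1 : (N : ℝ) / ((4 * (p + 1) : ℕ) : ℝ) < M + 1 := hm2
      have hM1 : (1 : ℝ) ≤ M := by
        refine le_trans ?_ hmR
        have : 1 ≤ k * Z ^ 6 := by nlinarith
        exact_mod_cast this
      rw [div_lt_iff₀ (by positivity)] at h1
      have h2 : ((4 * (p + 1) : ℕ) : ℝ) ≤ Z * Z := by
        have : 4 * (p + 1) ≤ Z * Z := Nat.mul_le_mul z4 zp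
        exact_mod_cast this
      have h3 : (M + 1) * ((4 * (p + 1) : ℕ) : ℝ) ≤ (2 * M) * (Z * Z) := by
        apply mul_le_mul (by linarith) h2 (by positivity) (by linarith)
      linarith
    have hNa : (N : ℝ) ≤ 4 * Z ^ 3 * a := by
      calc (N : ℝ) ≤ 2 * M * (Z * Z) := hNR
        _ ≤ 2 * (2 * Z * a) * (Z * Z) := by gcongr
        _ = 4 * Z ^ 3 * a := by ring
    -- upper bound for `a`
    obtain ⟨x, hx⟩ : ∃ x : ℝ, x = (N : ℝ) / ((Z ^ 8 : ℕ) : ℝ) := ⟨_, rfl⟩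
    rw [← hx] at hc
    have hxZ : x * Z ^ 8 = N := by
      rw [hx]
      push_cast
      field_simp
    have hN8 : (Z : ℝ) ^ 8 ≤ N := by
      have h1 : ((k * Z ^ 8 : ℕ) : ℝ) ≤ (N : ℝ) := by exact_mod_cast hN
      push_cast at h1
      nlinarith [pow_pos hZ0 8]
    have hx1 : 1 ≤ x := by
      have h8 : (0 : ℝ) < Z ^ 8 := by positivity
      by_contra h
      rw [not_le] at h
      nlinarith
    have h2x : (1 : ℝ) ≤ 2 ^ x := Real.one_le_rpow (by norm_num) (by linarith)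
    have hb : (2 * (S : ℝ) + 1) ≤ 2 ^ (x + 2) := by
      rw [Real.rpow_add (by norm_num)]
      have h1 : ((2 : ℝ) ^ (2 : ℝ)) = 4 := by norm_num
      rw [h1]
      linarith
    have hpow : (2 : ℝ) ^ a ≤ 2 ^ ((p : ℝ) + (x + 2) * (2 * 2 ^ p)) := by
      calc (2 : ℝ) ^ a ≤ ((p + 1 : ℕ) : ℝ) * (2 * S + 1) ^ (2 ^ (p + 1)) := hS
        _ ≤ 2 ^ p * (2 ^ (x + 2)) ^ (2 ^ (p + 1)) := by
          have h1 : ((p + 1 : ℕ) : ℝ) ≤ 2 ^ p := by exact_mod_cast pp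
          gcongr
        _ = 2 ^ ((p : ℝ) + (x + 2) * (2 * 2 ^ p)) := by
          have e1 : ((2 : ℝ) ^ (x + 2)) ^ (2 ^ (p + 1)) = 2 ^ ((x + 2) * (2 * 2 ^ p)) := by
            rw [← Real.rpow_natCast, ← Real.rpow_mul (by norm_num)]
            congr 2
            push_cast
            ring
          rw [e1, Real.rpow_add (by norm_num) (p : ℝ) _, Real.rpow_natCast]
    rw [← Real.rpow_natCast 2 a, Real.rpow_le_rpow_left_iff (by norm_num)] at hpow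
    have hpZ : (p : ℝ) ≤ Z := by
      have : p ≤ Z := by omega
      exact_mod_cast this
    have hAZ : (2 : ℝ) ^ p ≤ Z := by exact_mod_cast za
    have hup : (a : ℝ) ≤ Z + (x + 2) * (2 * Z) := by
      refine hpow.trans ?_
      gcongr
    -- contradiction
    have h1 : x * Z ^ 8 ≤ 4 * Z ^ 3 * (Z + (x + 2) * (2 * Z)) := by
      rw [hxZ]
      refine hNa.trans ?_
      gcongr
    have h2 : 4 * Z ^ 3 * (Z + (x + 2) * (2 * Z)) = Z ^ 4 * (8 * x + 20) := by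
      rw [show (Z : ℝ) ^ 4 = Z ^ 3 * Z by ring]
      ring
    rw [h2] at h1
    have h3 : x * (Z : ℝ) ^ 4 ≤ 8 * x + 20 := by
      have h4 : (0 : ℝ) < (Z : ℝ) ^ 4 := by positivity
      have h5 : (Z : ℝ) ^ 4 * (x * Z ^ 4) ≤ Z ^ 4 * (8 * x + 20) := by
        calc (Z : ℝ) ^ 4 * (x * Z ^ 4) = x * Z ^ 8 := by ring
          _ ≤ _ := h1
      exact le_of_mul_le_mul_left h5 h4
    have h6 : (256 : ℝ) ≤ (Z : ℝ) ^ 4 := by
      calc (256 : ℝ) = 4 ^ 4 := by norm_num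
        _ ≤ (Z : ℝ) ^ 4 := by gcongr
    nlinarith

end Vale.Agent.P336.R2.H842
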