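import Mathlib

/-!
Numerics for circuits whose wide bottom gates have limited views.
-/

namespace Vale.Agent.P336.R2.H842

theorem exp_le_two {z : ℝ} (hz : z ≤ 0) : Real.exp z ≤ (2 : ℝ) ^ z := by
  rw [Real.rpow_def_of_pos (by norm_num)]
  apply Real.exp_le_exp.2
  have h1 : Real.log 2 ≤ 1 := by
    have := Real.log_two_lt_d9
    linarith
  nlinarith

theorem exp_le_two' {z : ℝ} (hz : 0 ≤ z) : Real.exp z ≤ (2 : ℝ) ^ (2 * z) := by
  rw [Real.rpow_def_of_pos (by norm_num)]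
  apply Real.exp_le_exp.2
  have h1 : 1 / 2 ≤ Real.log 2 := by
    have := Real.log_two_gt_d9
    linarith
  nlinarith

/-- first term -/
theorem term_one {p a f a₀ : ℕ} {q L : ℝ} (hq0 : 0 < q) (hq : q ≤ 1 / 2) (hL : L ≤ q * a₀)
    (hexp : (p : ℝ) + 2 * a + 3 * f ≤ L / 2) (hL0 : 0 ≤ L) :
    (p : ℝ) * 4 ^ (a + f) * ((1 + q / 4) / (1 + q)) ^ a₀ ≤ (2 : ℝ) ^ (-(f : ℝ)) := by
  have h1 : (1 + q / 4) / (1 + q) ≤ Real.exp (-(q / 2)) := by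
    refine le_trans ?_ (Real.add_one_le_exp _)
    rw [div_le_iff₀ (by linarith)]
    nlinarith
  have h2 : ((1 + q / 4) / (1 + q)) ^ a₀ ≤ (2 : ℝ) ^ (-(L / 2)) := by
    calc ((1 + q / 4) / (1 + q)) ^ a₀ ≤ (Real.exp (-(q / 2))) ^ a₀ := by
          gcongr
      _ = Real.exp (-(q * a₀ / 2)) := by
          rw [← Real.exp_nat_mul]
          congr 1
          ring
      _ ≤ Real.exp (-(L / 2)) := by
          apply Real.exp_le_exp.2
          linarith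
      _ ≤ (2 : ℝ) ^ (-(L / 2)) := exp_le_two (by linarith)
  have h3 : (p : ℝ) ≤ (2 : ℝ) ^ (p : ℝ) := by
    rw [Real.rpow_natCast]
    exact_mod_cast Nat.lt_two_pow_self.le
  have h4 : (4 : ℝ) ^ (a + f) = (2 : ℝ) ^ (2 * ((a : ℝ) + f)) := by
    rw [Real.rpow_mul (by norm_num), ← Nat.cast_add, Real.rpow_natCast]
    norm_num
  rw [h4]
  calc (p : ℝ) * (2 : ℝ) ^ (2 * ((a : ℝ) + f)) * ((1 + q / 4) / (1 + q)) ^ a₀
      ≤ (2 : ℝ) ^ (p : ℝ) * (2 : ℝ) ^ (2 * ((a : ℝ) + f)) * (2 : ℝ) ^ (-(L / 2)) := by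
        gcongr
    _ = (2 : ℝ) ^ ((p : ℝ) + 2 * ((a : ℝ) + f) + -(L / 2)) := by
        rw [← Real.rpow_add (by norm_num), ← Real.rpow_add (by norm_num)]
    _ ≤ (2 : ℝ) ^ (-(f : ℝ)) := by
        apply Real.rpow_le_rpow_of_exponent_le (by norm_num)
        linarith

/-- third term -/
theorem term_three {p m a f : ℕ} {q L E : ℝ} (hE : E = 2 ^ p) (hE16 : 16 ≤ E)
    (hpE : (p : ℝ) + 1 ≤ E) (hq0 : 0 < q) (hqm : q * m = E ^ 9 * L) (hL0 : 0 ≤ L)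
    (hf : (f : ℝ) ≤ L / E ^ 4) (ha : L / 8 ≤ a + 1) :
    ((E ^ 16)⁻¹)⁻¹ ^ f * (1 + q * (E ^ 16)⁻¹) ^ (p * m) * (2 : ℝ) ^ (-(((a : ℝ) - p) / E)) ≤
      (2 : ℝ) ^ (1 - (f : ℝ)) := by
  have hE0 : 0 < E := by linarith
  have h1 : ((E ^ 16)⁻¹)⁻¹ ^ f = (2 : ℝ) ^ (16 * (p : ℝ) * f) := by
    rw [inv_inv, hE, ← pow_mul, ← pow_mul, ← Real.rpow_natCast]
    congr 1
    push_cast
    ring
  have h2 : (1 + q * (E ^ 16)⁻¹) ^ (p * m) ≤ (2 : ℝ) ^ (2 * (L / E ^ 6)) := by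
    calc (1 + q * (E ^ 16)⁻¹) ^ (p * m) ≤ (Real.exp (q * (E ^ 16)⁻¹)) ^ (p * m) := by
          gcongr
          have := Real.add_one_le_exp (q * (E ^ 16)⁻¹)
          linarith
      _ = Real.exp (p * (q * m) * (E ^ 16)⁻¹) := by
          rw [← Real.exp_nat_mul]
          congr 1
          push_cast
          ring
      _ ≤ Real.exp (L / E ^ 6) := by
          apply Real.exp_le_exp.2
          rw [hqm]
          have h3 : (p : ℝ) ≤ E := by linarith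
          calc (p : ℝ) * (E ^ 9 * L) * (E ^ 16)⁻¹ ≤ E * (E ^ 9 * L) * (E ^ 16)⁻¹ := by gcongr
            _ = L / E ^ 6 := by field_simp
      _ ≤ (2 : ℝ) ^ (2 * (L / E ^ 6)) := exp_le_two' (by positivity)
  rw [h1]
  calc (2 : ℝ) ^ (16 * (p : ℝ) * f) * (1 + q * (E ^ 16)⁻¹) ^ (p * m) *
        (2 : ℝ) ^ (-(((a : ℝ) - p) / E))
      ≤ (2 : ℝ) ^ (16 * (p : ℝ) * f) * (2 : ℝ) ^ (2 * (L / E ^ 6)) *
        (2 : ℝ) ^ (-(((a : ℝ) - p) / E)) := by gcongr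
    _ = (2 : ℝ) ^ (16 * (p : ℝ) * f + 2 * (L / E ^ 6) + -(((a : ℝ) - p) / E)) := by
        rw [← Real.rpow_add (by norm_num), ← Real.rpow_add (by norm_num)]
    _ ≤ (2 : ℝ) ^ (1 - (f : ℝ)) := by
        apply Real.rpow_le_rpow_of_exponent_le (by norm_num)
        obtain ⟨u, hu⟩ : ∃ u : ℝ, u = L / E := ⟨_, rfl⟩
        have hu0 : 0 ≤ u := by rw [hu]; positivity
        have e1 : L / E ^ 4 = u / E ^ 3 := by rw [hu]; field_simp
        have e2 : L / E ^ 6 = u / E ^ 5 := by rw [hu]; field_simp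
        have e3 : L / 8 / E = u / 8 := by rw [hu]; ring
        have h3 : (L / 8 - 1 - p) / E ≤ ((a : ℝ) - p) / E := by
          gcongr
          linarith
        have h4 : (L / 8 - 1 - p) / E = u / 8 - (1 + p) / E := by
          rw [← e3]; ring
        have h5 : (1 + (p : ℝ)) / E ≤ 1 := by
          rw [div_le_one hE0]; linarith
        have h6 : (16 * (p : ℝ) + 1) * f ≤ 17 * (u / E ^ 2) := by
          calc (16 * (p : ℝ) + 1) * f ≤ (17 * E) * (u / E ^ 3) := by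
                rw [← e1]
                apply mul_le_mul (by linarith) hf (by positivity) (by positivity)
            _ = 17 * (u / E ^ 2) := by field_simp
        have hE2 : (256 : ℝ) ≤ E ^ 2 := by nlinarith
        have hE5 : (256 : ℝ) ≤ E ^ 5 := by
          calc (256 : ℝ) ≤ E ^ 2 := hE2
            _ ≤ E ^ 5 := pow_le_pow_right₀ (by linarith) (by norm_num)
        have h7 : u / E ^ 2 ≤ u / 256 := by gcongr
        have h8 : u / E ^ 5 ≤ u / 256 := by gcongr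
        rw [e2]
        linarith

theorem numerics_wide : ∃ K : ℕ, 1 ≤ K ∧ ∀ p m r a₀ : ℕ, 4 ≤ p → 1 ≤ r → r * 2 ^ (K * p) ≤ m →
    m ≤ 2 ^ (9 * p) * a₀ → ∃ (a f : ℕ) (q y β : ℝ), a ≤ m ∧ 0 < q ∧ q ≤ 1 ∧
      (r : ℝ) * q ≤ 1 / 2 ∧ 0 < y ∧ y ≤ 1 ∧ 0 ≤ β ∧ (p : ℝ) * (1 / 2) ^ a ≤ β ^ 2 ^ p ∧
      ∀ S : ℕ, 1 ≤ (2 * (S : ℝ) + 1) * (2 * (p * 4 ^ (a + f) * ((1 + q / 4) / (1 + q)) ^ a₀ +
        (1 / 2) ^ f + y⁻¹ ^ f * (1 + q * y) ^ (p * m) * β)) →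
        (2 : ℝ) ^ ((m : ℝ) / (r * 2 ^ (K * p))) ≤ S := by
  refine ⟨14, by norm_num, fun p m r a₀ hp hr hm ha₀ => ?_⟩
  obtain ⟨E, hE⟩ : ∃ E : ℝ, E = 2 ^ p := ⟨_, rfl⟩
  have hE16 : 16 ≤ E := by
    rw [hE]
    calc (16 : ℝ) = 2 ^ 4 := by norm_num
      _ ≤ 2 ^ p := pow_le_pow_right₀ (by norm_num) hp
  have hE0 : 0 < E := by linarith
  have hpE : (p : ℝ) + 1 ≤ E := by
    rw [hE]
    have : p + 1 ≤ 2 ^ p := Nat.lt_two_pow_self
    exact_mod_cast this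
  have e14 : (2 : ℝ) ^ (14 * p) = E ^ 14 := by rw [hE, ← pow_mul, mul_comm]
  have e9 : (2 : ℝ) ^ (9 * p) = E ^ 9 := by rw [hE, ← pow_mul, mul_comm]
  have hr1 : (1 : ℝ) ≤ r := by exact_mod_cast hr
  have hr0 : (0 : ℝ) < r := by linarith
  have hmR : (r : ℝ) * E ^ 14 ≤ m := by
    rw [← e14]; exact_mod_cast hm
  have haR : (m : ℝ) ≤ E ^ 9 * a₀ := by
    rw [← e9]; exact_mod_cast ha₀
  rw [e14]
  obtain ⟨x, hx⟩ : ∃ x : ℝ, x = (m : ℝ) / (r * E ^ 14) := ⟨_, rfl⟩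
  have hx1 : 1 ≤ x := by
    rw [hx, le_div_iff₀ (by positivity)]; linarith
  have hmx : (m : ℝ) = x * r * E ^ 14 := by rw [hx]; field_simp
  rw [← hx]
  obtain ⟨L, hL⟩ : ∃ L : ℝ, L = x * E ^ 5 / 2 := ⟨_, rfl⟩
  have hE5 : (1048576 : ℝ) ≤ E ^ 5 := by
    calc (1048576 : ℝ) = 16 ^ 5 := by norm_num
      _ ≤ E ^ 5 := by gcongr
  have hL0 : 0 < L := by rw [hL]; positivity
  obtain ⟨q, hq⟩ : ∃ q : ℝ, q = 1 / (2 * r) := ⟨_, rfl⟩
  have hq0 : 0 < q := by rw [hq]; positivity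
  have hrq : (r : ℝ) * q = 1 / 2 := by rw [hq]; field_simp
  have hq2 : q ≤ 1 / 2 := by nlinarith
  have hqm : q * m = E ^ 9 * L := by
    rw [hmx, hL]
    calc q * (x * r * E ^ 14) = (r * q) * (x * E ^ 14) := by ring
      _ = E ^ 9 * (x * E ^ 5 / 2) := by rw [hrq]; ring
  have hLq : L ≤ q * a₀ := by
    have h1 : E ^ 9 * L ≤ E ^ 9 * (q * a₀) := by
      rw [← hqm]
      calc q * m ≤ q * (E ^ 9 * a₀) := by gcongr
        _ = E ^ 9 * (q * a₀) := by ring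
    exact le_of_mul_le_mul_left h1 (by positivity)
  have hLm : L ≤ m := by
    have h9 : (1 : ℝ) ≤ E ^ 9 := one_le_pow₀ (by linarith)
    have hm0 : (0 : ℝ) ≤ m := Nat.cast_nonneg _
    nlinarith
  have hpL : (p : ℝ) ≤ L / 8 := by
    have h1 : (p : ℝ) ≤ E := by linarith
    have h2 : E ≤ L / 8 := by
      rw [hL]
      have h3 : E * 65536 ≤ E ^ 5 := by
        calc E * 65536 = E * 16 ^ 4 := by norm_num
          _ ≤ E * E ^ 4 := by gcongr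
          _ = E ^ 5 := by ring
      nlinarith
    linarith
  have ha1 : ((⌊L / 8⌋₊ : ℕ) : ℝ) ≤ L / 8 := Nat.floor_le (by positivity)
  have ha2 : L / 8 < ((⌊L / 8⌋₊ : ℕ) : ℝ) + 1 := Nat.lt_floor_add_one _
  generalize ⌊L / 8⌋₊ = a at ha1 ha2
  have hf1 : ((⌊L / E ^ 4⌋₊ : ℕ) : ℝ) ≤ L / E ^ 4 := Nat.floor_le (by positivity)
  have hf2 : L / E ^ 4 < ((⌊L / E ^ 4⌋₊ : ℕ) : ℝ) + 1 := Nat.lt_floor_add_one _
  generalize ⌊L / E ^ 4⌋₊ = f at hf1 hf2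
  have hf3 : 3 * (f : ℝ) ≤ L / 8 := by
    have h1 : L / E ^ 4 ≤ L / 24 := by
      apply div_le_div_of_nonneg_left hL0.le (by norm_num)
      calc (24 : ℝ) ≤ 16 ^ 4 := by norm_num
        _ ≤ E ^ 4 := by gcongr
    linarith
  refine ⟨a, f, q, (E ^ 16)⁻¹, (2 : ℝ) ^ (-(((a : ℝ) - p) / E)), ?_, hq0, by linarith,
    hrq.le, by positivity, ?_, by positivity, ?_, fun S hS => ?_⟩
  · have h1 : (a : ℝ) ≤ m := by linarith
    exact_mod_cast h1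
  · exact inv_le_one_of_one_le₀ (one_le_pow₀ (by linarith))
  · have h1 : ((2 : ℝ) ^ (-(((a : ℝ) - p) / E))) ^ 2 ^ p = (2 : ℝ) ^ ((p : ℝ) - a) := by
      rw [← Real.rpow_natCast, ← Real.rpow_mul (by norm_num)]
      congr 1
      push_cast
      rw [← hE]
      field_simp
      ring
    rw [h1, Real.rpow_sub (by norm_num), Real.rpow_natCast, Real.rpow_natCast, one_div, inv_pow,
      div_eq_mul_inv]
    have h2 : (p : ℝ) ≤ 2 ^ p := by rw [← hE]; linarith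
    gcongr
  · have t1 := term_one (p := p) (a := a) (f := f) hq0 hq2 hLq (by linarith) hL0.le
    have t3 := term_three (p := p) (m := m) (a := a) (f := f) hE hE16 hpE hq0 hqm hL0.le hf1
      ha2.le
    have t2 : ((1 : ℝ) / 2) ^ f = (2 : ℝ) ^ (-(f : ℝ)) := by
      rw [Real.rpow_neg (by norm_num), Real.rpow_natCast, one_div, inv_pow]
    have t4 : (2 : ℝ) ^ (1 - (f : ℝ)) = 2 * (2 : ℝ) ^ (-(f : ℝ)) := by
      rw [sub_eq_add_neg, Real.rpow_add (by norm_num), Real.rpow_one]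
    rw [t4] at t3
    rw [t2] at hS
    generalize (p : ℝ) * 4 ^ (a + f) * ((1 + q / 4) / (1 + q)) ^ a₀ = A at t1 hS
    generalize ((E ^ 16)⁻¹)⁻¹ ^ f * (1 + q * (E ^ 16)⁻¹) ^ (p * m) *
      (2 : ℝ) ^ (-(((a : ℝ) - p) / E)) = C at t3 hS
    by_contra hc
    rw [not_le] at hc
    have hS0 : (0 : ℝ) ≤ S := Nat.cast_nonneg _
    have h1 : 1 ≤ (2 * (S : ℝ) + 1) * (8 * (2 : ℝ) ^ (-(f : ℝ))) :=
      hS.trans (mul_le_mul_of_nonneg_left (by linarith) (by linarith))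
    have h2 : (1 : ℝ) ≤ 2 ^ x := Real.one_le_rpow (by norm_num) (by linarith)
    have h3 : 2 * (S : ℝ) + 1 ≤ 4 * 2 ^ x := by linarith
    have h4 : 1 ≤ (4 * (2 : ℝ) ^ x) * (8 * (2 : ℝ) ^ (-(f : ℝ))) :=
      h1.trans (mul_le_mul_of_nonneg_right h3 (by positivity))
    have h5 : (4 * (2 : ℝ) ^ x) * (8 * (2 : ℝ) ^ (-(f : ℝ))) = (2 : ℝ) ^ (5 + x + -(f : ℝ)) := by
      rw [Real.rpow_add (by norm_num), Real.rpow_add (by norm_num)]
      norm_num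
      ring
    rw [h5] at h4
    have h6 : 0 ≤ 5 + x + -(f : ℝ) := by
      by_contra h
      rw [not_le] at h
      have := Real.rpow_lt_one_of_one_lt_of_neg (x := (2 : ℝ)) (by norm_num) h
      linarith
    have h7 : L / E ^ 4 = x * E / 2 := by rw [hL]; field_simp
    rw [h7] at hf2
    nlinarith

end Vale.Agent.P336.R2.H842
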